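import Vale.Agent.P038.H139.Steps

/-!
# The two-family cut argument (P038)

For an oriented graph `D` with at least one arc and positive weights `w` it is impossible that
`w(N[N[S]]) + w(S) < 2 w(N[S])` holds for every nonempty proper set `S` of vertices.
-/

namespace Vale.Agent.P038.H585

open Finset H139

variable {V : Type*} [Fintype V]

/-- `v ∈ N⁻[a]`: `v = a` or there is an arc `v → a`. -/
def Nm (D : OGraph V) (a v : V) : Prop := v = a ∨ D.arc v a

theorem mem_cl_iff {D : OGraph V} {S : Finset V} {z : V} : z ∈ cl D S ↔ ∃ y ∈ S, Nm D z y := by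
  rw [mem_cl]
  constructor
  · rintro (h | ⟨y, hy, hyz⟩)
    · exact ⟨z, h, Or.inl rfl⟩
    · exact ⟨y, hy, Or.inr hyz⟩
  · rintro ⟨y, hy, rfl | h⟩
    · exact Or.inl hy
    · exact Or.inr ⟨y, hy, h⟩

theorem subset_cl {D : OGraph V} {S : Finset V} : S ⊆ cl D S := fun _ hz =>
  mem_cl.2 (Or.inl hz)

/-- `c(S) = w(N[S]) - w(S)`. -/
noncomputable def cc (D : OGraph V) (w : V → ℝ) (S : Finset V) : ℝ := W w (cl D S) - W w S

section Sub

variable [DecidableEq V] {D : OGraph V} {w : V → ℝ}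

theorem W_union_inter (w : V → ℝ) (S T : Finset V) :
    W w (S ∪ T) + W w (S ∩ T) = W w S + W w T := Finset.sum_union_inter

theorem cc_submod (hw : ∀ v, 0 ≤ w v) (S T : Finset V) :
    cc D w (S ∪ T) + cc D w (S ∩ T) ≤ cc D w S + cc D w T := by
  have h1 := W_union_inter w S T
  have h2 := W_union_inter w (cl D S) (cl D T)
  have h3 : W w (cl D (S ∩ T)) ≤ W w (cl D S ∩ cl D T) :=
    W_mono hw (Finset.subset_inter (cl_mono Finset.inter_subset_left)
      (cl_mono Finset.inter_subset_right))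
  unfold cc
  rw [cl_union]
  linarith

end Sub

/-- The minimum of `c` over the sets between `S` and `K`. -/
noncomputable def cm (D : OGraph V) (w : V → ℝ) (K S : Finset V) : ℝ :=
  sInf {r | ∃ S', S ⊆ S' ∧ S' ⊆ K ∧ cc D w S' = r}

section Cm

variable {D : OGraph V} {w : V → ℝ} {K S S' : Finset V}

theorem cm_fin : {r | ∃ S', S ⊆ S' ∧ S' ⊆ K ∧ cc D w S' = r}.Finite := by
  refine (Set.finite_range (cc D w)).subset ?_
  rintro r ⟨S', -, -, rfl⟩
  exact ⟨S', rfl⟩

theorem cm_le (h1 : S ⊆ S') (h2 : S' ⊆ K) : cm D w K S ≤ cc D w S' :=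
  csInf_le cm_fin.bddBelow ⟨S', h1, h2, rfl⟩

theorem exists_cm (h : S ⊆ K) : ∃ S', S ⊆ S' ∧ S' ⊆ K ∧ cc D w S' = cm D w K S :=
  Set.Nonempty.csInf_mem
    (s := {r | ∃ S', S ⊆ S' ∧ S' ⊆ K ∧ cc D w S' = r}) ⟨_, K, h, subset_rfl, rfl⟩ cm_fin

theorem cm_mono (h1 : S ⊆ S') (h2 : S' ⊆ K) : cm D w K S ≤ cm D w K S' := by
  obtain ⟨T, hT1, hT2, hT3⟩ := exists_cm (D := D) (w := w) h2
  rw [← hT3]
  exact cm_le (h1.trans hT1) hT2

theorem cm_self : cm D w K K = cc D w K := by
  obtain ⟨T, hT1, hT2, hT3⟩ := exists_cm (D := D) (w := w) (subset_refl K)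
  rw [← hT3, subset_antisymm hT2 hT1]

end Cm

/-- A numbering of the vertices. -/
noncomputable def rk (x : V) : ℕ := (Fintype.equivFin V x : ℕ)

theorem rk_inj {x y : V} (h : rk x = rk y) : x = y :=
  (Fintype.equivFin V).injective (Fin.ext h)

theorem rk_lt (x : V) : rk x < Fintype.card V := (Fintype.equivFin V x).2

/-- The elements of `K` with number less than `i`. -/
noncomputable def lv (K : Finset V) (i : ℕ) : Finset V := K.filter fun z => rk z < i

theorem mem_lv {K : Finset V} {i : ℕ} {z : V} : z ∈ lv K i ↔ z ∈ K ∧ rk z < i := by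
  unfold lv
  rw [Finset.mem_filter]

theorem tele (f : ℕ → ℝ) :
    ∑ x : V, (f (rk x + 1) - f (rk x)) = f (Fintype.card V) - f 0 := by
  have h1 : ∑ x : V, (f (rk x + 1) - f (rk x)) =
      ∑ i : Fin (Fintype.card V), (f ((i : ℕ) + 1) - f (i : ℕ)) :=
    Equiv.sum_comp (Fintype.equivFin V) (fun i => f ((i : ℕ) + 1) - f (i : ℕ))
  rw [h1, Fin.sum_univ_eq_sum_range (fun i => f (i + 1) - f i), Finset.sum_range_sub]

section Key

variable [DecidableEq V] {D : OGraph V} {w : V → ℝ}

/-- The level function. -/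
noncomputable def fm (D : OGraph V) (w : V → ℝ) (K U : Finset V) (i : ℕ) : ℝ :=
  cm D w K (U ∪ lv K i)

theorem lv_sub {K : Finset V} {i : ℕ} : lv K i ⊆ K := fun _ hz => (mem_lv.1 hz).1

theorem fm_zero (K U : Finset V) : fm D w K U 0 = cm D w K U := by
  unfold fm
  congr 1
  ext z
  simp [mem_lv]

theorem fm_card {K U : Finset V} (h : U ⊆ K) : fm D w K U (Fintype.card V) = cc D w K := by
  unfold fm
  have : U ∪ lv K (Fintype.card V) = K := by
    ext z
    rw [Finset.mem_union, mem_lv]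
    exact ⟨fun h' => h'.elim (fun h1 => h h1) fun h1 => h1.1, fun h' => Or.inr ⟨h', rk_lt z⟩⟩
  rw [this, cm_self]

theorem fm_mono {K U : Finset V} (h : U ⊆ K) (i : ℕ) : fm D w K U i ≤ fm D w K U (i + 1) := by
  refine cm_mono ?_ (Finset.union_subset h lv_sub)
  refine Finset.union_subset_union subset_rfl ?_
  intro z hz
  rw [mem_lv] at hz ⊢
  exact ⟨hz.1, by omega⟩

theorem fm_sum {K U : Finset V} (h : U ⊆ K) :
    ∑ x : V, (fm D w K U (rk x + 1) - fm D w K U (rk x)) = cc D w K - cm D w K U := by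
  rw [tele, fm_card h, fm_zero]

/-- Marginals: the smaller pair of sets has the larger marginal. -/
theorem marg (hw : ∀ v, 0 ≤ w v) {K U X Y : Finset V} (hUK : U ⊆ K) (hXU : X ⊆ U)
    (hXY : X ⊆ Y) (hYK : Y ⊆ K) {x : V} (hx : x ∈ Y) :
    fm D w K U (rk x + 1) - fm D w K U (rk x) ≤ fm D w Y X (rk x + 1) - fm D w Y X (rk x) := by
  unfold fm
  obtain ⟨A, hA1, hA2, hA3⟩ := exists_cm (D := D) (w := w) (K := Y) (S := X ∪ lv Y (rk x + 1))
    (Finset.union_subset hXY lv_sub)
  obtain ⟨B, hB1, hB2, hB3⟩ := exists_cm (D := D) (w := w) (K := K) (S := U ∪ lv K (rk x))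
    (Finset.union_subset hUK lv_sub)
  have h1 : cm D w K (U ∪ lv K (rk x + 1)) ≤ cc D w (A ∪ B) := by
    refine cm_le ?_ (Finset.union_subset (hA2.trans hYK) hB2)
    intro z hz
    rw [Finset.mem_union, mem_lv] at hz
    rw [Finset.mem_union]
    rcases hz with hz | ⟨hz, hz'⟩
    · exact Or.inr (hB1 (Finset.mem_union_left _ hz))
    · rcases Nat.lt_or_ge (rk z) (rk x) with h2 | h2
      · exact Or.inr (hB1 (Finset.mem_union_right _ (mem_lv.2 ⟨hz, h2⟩)))
      · have h3 : z = x := rk_inj (by omega)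
        subst h3
        exact Or.inl (hA1 (Finset.mem_union_right _ (mem_lv.2 ⟨hx, hz'⟩)))
  have h2 : cm D w Y (X ∪ lv Y (rk x)) ≤ cc D w (A ∩ B) := by
    refine cm_le ?_ (Finset.inter_subset_left.trans hA2)
    intro z hz
    rw [Finset.mem_union, mem_lv] at hz
    rw [Finset.mem_inter]
    rcases hz with hz | ⟨hz, hz'⟩
    · exact ⟨hA1 (Finset.mem_union_left _ hz), hB1 (Finset.mem_union_left _ (hXU hz))⟩
    · exact ⟨hA1 (Finset.mem_union_right _ (mem_lv.2 ⟨hz, by omega⟩)),
        hB1 (Finset.mem_union_right _ (mem_lv.2 ⟨hYK hz, hz'⟩))⟩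
  have h3 := cc_submod (D := D) hw A B
  linarith

/-- Hall type comparison of weighted sums. -/
theorem hallsum (hw : ∀ v, 0 ≤ w v) (R : Finset V) :
    ∀ (n : ℕ) (G : Finset V), G.card = n → ∀ (y z : V → ℝ), (∀ v ∈ G, 0 ≤ y v) →
      (∀ T ⊆ G, W w T ≤ W w (cl D T \ R)) →
      (∀ a ∈ cl D G \ R, ∀ v ∈ G, Nm D a v → y v ≤ z a) →
      ∑ v ∈ G, w v * y v ≤ ∑ a ∈ cl D G \ R, w a * z a := by
  intro n
  induction n with
  | zero =>
    intro G hG y z hy hH hz
    have hG0 : G = ∅ := Finset.card_eq_zero.1 hG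
    subst hG0
    have hcl : cl D (∅ : Finset V) = ∅ := by
      rw [Finset.eq_empty_iff_forall_notMem]
      intro z hz
      rw [mem_cl] at hz
      simp at hz
    simp [hcl]
  | succ n ih =>
    intro G hG y z hy hH hz
    have hne : G.Nonempty := by
      rw [← Finset.card_pos]
      omega
    obtain ⟨v0, hv0, hmin⟩ := Finset.exists_min_image G y hne
    have hm : 0 ≤ y v0 := hy v0 hv0
    have hzm : ∀ a ∈ cl D G \ R, y v0 ≤ z a := by
      intro a ha
      obtain ⟨v, hv, hav⟩ := mem_cl_iff.1 (Finset.mem_sdiff.1 ha).1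
      exact (hmin v hv).trans (hz a ha v hv hav)
    have hsub : cl D (G.erase v0) \ R ⊆ cl D G \ R :=
      Finset.sdiff_subset_sdiff (cl_mono (Finset.erase_subset _ _)) subset_rfl
    have h1 := ih (G.erase v0) (by rw [Finset.card_erase_of_mem hv0, hG]; rfl)
      (fun v => y v - y v0) (fun a => z a - y v0)
      (fun v hv => sub_nonneg.2 (hmin v (Finset.mem_of_mem_erase hv)))
      (fun T hT => hH T (hT.trans (Finset.erase_subset _ _)))
      (fun a ha v hv hav =>
        sub_le_sub_right (hz a (hsub ha) v (Finset.mem_of_mem_erase hv) hav) _)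
    have h2 : ∑ a ∈ cl D (G.erase v0) \ R, w a * (z a - y v0) ≤
        ∑ a ∈ cl D G \ R, w a * (z a - y v0) :=
      Finset.sum_le_sum_of_subset_of_nonneg hsub
        (fun a ha _ => mul_nonneg (hw a) (sub_nonneg.2 (hzm a ha)))
    have h3 : ∑ v ∈ G, w v * (y v - y v0) = ∑ v ∈ G.erase v0, w v * (y v - y v0) := by
      rw [← Finset.add_sum_erase G _ hv0, sub_self, mul_zero, zero_add]
    have h4 := hH G subset_rfl
    have e1 : ∑ v ∈ G, w v * (y v - y v0) = ∑ v ∈ G, w v * y v - y v0 * W w G := by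
      unfold W
      rw [Finset.mul_sum, ← Finset.sum_sub_distrib]
      exact Finset.sum_congr rfl fun v _ => by ring
    have e2 : ∑ a ∈ cl D G \ R, w a * (z a - y v0) =
        ∑ a ∈ cl D G \ R, w a * z a - y v0 * W w (cl D G \ R) := by
      unfold W
      rw [Finset.mul_sum, ← Finset.sum_sub_distrib]
      exact Finset.sum_congr rfl fun v _ => by ring
    have h5 := mul_le_mul_of_nonneg_left h4 hm
    linarith

end Key

/-! ### Pairs of families -/

/-- Feasible pairs of families. -/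
structure Feas (D : OGraph V) (U Z : V → Finset V) : Prop where
  hU : ∀ a b, Nm D b a → b ∈ U a
  hZ : ∀ a b, Nm D b a → b ∈ Z a
  orth : ∀ a x, a ≠ x → x ∈ U a → a ∉ Z x

open Classical in
/-- The left interior: the intersection of the rows over `N⁻[a]`. -/
noncomputable def Xf (D : OGraph V) (U : V → Finset V) (a : V) : Finset V :=
  Finset.univ.filter fun x => ∀ v, Nm D a v → x ∈ U v

theorem mem_Xf {D : OGraph V} {U : V → Finset V} {a x : V} :
    x ∈ Xf D U a ↔ ∀ v, Nm D a v → x ∈ U v := by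
  classical
  simp [Xf]

open Classical in
/-- The complementary rows. -/
noncomputable def Kf (Z : V → Finset V) (a : V) : Finset V :=
  Finset.univ.filter fun x => x = a ∨ a ∉ Z x

theorem mem_Kf {Z : V → Finset V} {a x : V} : x ∈ Kf Z a ↔ x = a ∨ a ∉ Z x := by
  classical
  simp [Kf]

section Fam

variable {D : OGraph V} {w : V → ℝ} {U Z : V → Finset V}

theorem Feas.swap (h : Feas D U Z) : Feas D Z U :=
  ⟨h.hZ, h.hU, fun a x hax hx ha => h.orth x a (Ne.symm hax) ha hx⟩

theorem Xf_sub (a : V) : Xf D U a ⊆ U a := fun _ hx => mem_Xf.1 hx a (Or.inl rfl)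

theorem Feas.self_X (h : Feas D U Z) (a : V) : a ∈ Xf D U a :=
  mem_Xf.2 fun v hv => h.hU v a hv

theorem Feas.sub_K (h : Feas D U Z) (a : V) : U a ⊆ Kf Z a := by
  intro x hx
  rw [mem_Kf]
  by_cases hxa : x = a
  · exact Or.inl hxa
  · exact Or.inr (h.orth a x (Ne.symm hxa) hx)

theorem Feas.step (h : Feas D U Z) :
    Feas D (fun a => cl D (Xf D U a)) (fun a => cl D (Xf D Z a)) := by
  refine ⟨fun a b hab => mem_cl_iff.2 ⟨a, h.self_X a, hab⟩,
    fun a b hab => mem_cl_iff.2 ⟨a, h.swap.self_X a, hab⟩, ?_⟩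
  intro a x hax hx ha
  obtain ⟨p, hp, hxp⟩ := mem_cl_iff.1 hx
  obtain ⟨q, hq, haq⟩ := mem_cl_iff.1 ha
  have h1 : p ∈ U q := mem_Xf.1 hp q haq
  have h2 : q ∈ Z p := mem_Xf.1 hq p hxp
  by_cases hpq : q = p
  · subst hpq
    have h3 : q ∈ U a := Xf_sub a hp
    have h4 : a ∈ Z q := h.hZ q a haq
    have h5 : a = q := by
      by_contra h5
      exact h.orth a q h5 h3 h4
    have h6 : q ∈ Z x := Xf_sub x hq
    have h7 : x ∈ U q := h.hU q x hxp
    have h8 : q = x := by
      by_contra h8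
      exact h.orth q x h8 h7 h6
    exact hax (h5.trans h8)
  · exact h.orth q p hpq h1 h2

/-- FACT: `x ∈ W_a ↔ a ∉ N[Z_x]` for `x ≠ a`. -/
theorem Feas.mem_W (h : Feas D U Z) {a x : V} (hax : a ≠ x) :
    x ∈ Xf D (Kf Z) a ↔ a ∉ cl D (Z x) := by
  constructor
  · intro hx ha
    obtain ⟨v, hv, hav⟩ := mem_cl_iff.1 ha
    have h1 := mem_Kf.1 (mem_Xf.1 hx v hav)
    rcases h1 with h1 | h1
    · subst h1
      have h2 := mem_Kf.1 (mem_Xf.1 hx a (Or.inl rfl))
      rcases h2 with h2 | h2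
      · exact hax h2.symm
      · exact h2 (h.hZ x a hav)
    · exact h1 hv
  · intro ha
    rw [mem_Xf]
    intro v hv
    rw [mem_Kf]
    exact Or.inr fun h1 => ha (mem_cl_iff.2 ⟨v, h1, hv⟩)

theorem Feas.self_W (h : Feas D U Z) (a : V) : a ∈ Xf D (Kf Z) a :=
  mem_Xf.2 fun v hv => h.sub_K v (h.hU v a hv)

theorem Feas.X_sub_W (h : Feas D U Z) (a : V) : Xf D U a ⊆ Xf D (Kf Z) a := fun _ hx =>
  mem_Xf.2 fun v hv => h.sub_K v (mem_Xf.1 hx v hv)

/-- The cost of a pair of families. -/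
noncomputable def Cost (D : OGraph V) (w : V → ℝ) (U Z : V → Finset V) : ℝ :=
  ∑ a, w a * cc D w (U a) + ∑ x, w x * cc D w (Z x)

/-- Minimality. -/
def Mn (D : OGraph V) (w : V → ℝ) (U Z : V → Finset V) : Prop :=
  ∀ U' Z', Feas D U' Z' → Cost D w U Z ≤ Cost D w U' Z'

theorem Mn.swap (h : Mn D w U Z) : Mn D w Z U := by
  intro U' Z' h'
  have := h Z' U' h'.swap
  unfold Cost at this ⊢
  linarith

/-- (R). -/
theorem row_min (hw : ∀ v, 0 < w v) (h : Feas D U Z) (hm : Mn D w U Z) (a : V) (S : Finset V)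
    (h1 : U a ⊆ S) (h2 : S ⊆ Kf Z a) : cc D w (U a) ≤ cc D w S := by
  classical
  have hf : Feas D (Function.update U a S) Z := by
    refine ⟨?_, h.hZ, ?_⟩
    · intro b c hbc
      by_cases hb : b = a
      · subst hb
        rw [Function.update_self]
        exact h1 (h.hU b c hbc)
      · rw [Function.update_of_ne hb]
        exact h.hU b c hbc
    · intro b x hbx hx
      by_cases hb : b = a
      · subst hb
        rw [Function.update_self] at hx
        rcases mem_Kf.1 (h2 hx) with h3 | h3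
        · exact absurd h3.symm hbx
        · exact h3
      · rw [Function.update_of_ne hb] at hx
        exact h.orth b x hbx hx
  have h3 := hm _ _ hf
  unfold Cost at h3
  have h4 : ∑ b, w b * cc D w (Function.update U a S b) - ∑ b, w b * cc D w (U b) =
      w a * (cc D w S - cc D w (U a)) := by
    rw [← Finset.sum_sub_distrib, Finset.sum_eq_single a]
    · rw [Function.update_self]
      ring
    · intro b _ hb
      rw [Function.update_of_ne hb]
      ring
    · intro h5
      exact absurd (Finset.mem_univ a) h5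
  have h5 : 0 ≤ w a * (cc D w S - cc D w (U a)) := by linarith
  have h6 := nonneg_of_mul_nonneg_right h5 (hw a)
  linarith

open Classical in
/-- The gap of the column `x`. -/
noncomputable def Gx (U Z : V → Finset V) (x : V) : Finset V :=
  Finset.univ.filter fun a => a ≠ x ∧ x ∉ U a ∧ a ∉ Z x

theorem mem_Gx {x a : V} : a ∈ Gx U Z x ↔ a ≠ x ∧ x ∉ U a ∧ a ∉ Z x := by
  classical
  simp [Gx]

/-- (C). -/
theorem col_min [DecidableEq V] (hw : ∀ v, 0 < w v) (h : Feas D U Z) (hm : Mn D w U Z) (x : V)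
    (T : Finset V) (hT : T ⊆ Gx U Z x) : W w T ≤ W w (cl D T \ cl D (Z x)) := by
  have h1 := row_min hw h.swap hm.swap x (Z x ∪ T) Finset.subset_union_left (by
    refine Finset.union_subset (h.swap.sub_K x) ?_
    intro a ha
    rw [mem_Kf]
    exact Or.inr (mem_Gx.1 (hT ha)).2.1)
  unfold cc at h1
  have h2 : Disjoint (Z x) T := by
    rw [Finset.disjoint_right]
    intro a ha
    exact (mem_Gx.1 (hT ha)).2.2
  have h3 : cl D (Z x ∪ T) = cl D (Z x) ∪ (cl D T \ cl D (Z x)) := by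
    rw [cl_union, Finset.union_sdiff_self_eq_union]
  rw [h3, W_union h2, W_union Finset.disjoint_sdiff] at h1
  linarith

/-- (3a). -/
theorem inter_le [DecidableEq V] (hw : ∀ v, 0 < w v) (h : Feas D U Z) (hm : Mn D w U Z)
    (P : Finset V) (S : Finset V) (hS : ∀ v ∈ P, S ⊆ Kf Z v) :
    cc D w (S.filter fun x => ∀ v ∈ P, x ∈ U v) ≤ cc D w S := by
  classical
  induction P using Finset.induction_on with
  | empty =>
    simp
  | insert v P hv ih =>
    have ih' := ih fun u hu => hS u (Finset.mem_insert_of_mem hu)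
    set T := S.filter fun x => ∀ v ∈ P, x ∈ U v with hT
    have e : (S.filter fun x => ∀ u ∈ insert v P, x ∈ U u) = T ∩ U v := by
      ext x
      simp only [Finset.mem_filter, Finset.mem_inter, Finset.mem_insert, hT]
      constructor
      · rintro ⟨h1, h2⟩
        exact ⟨⟨h1, fun u hu => h2 u (Or.inr hu)⟩, h2 v (Or.inl rfl)⟩
      · rintro ⟨⟨h1, h2⟩, h3⟩
        refine ⟨h1, ?_⟩
        rintro u (rfl | hu)
        · exact h3
        · exact h2 u hu
    have h1 := cc_submod (D := D) (fun v => (hw v).le) T (U v)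
    have h2 := row_min hw h hm v (T ∪ U v) Finset.subset_union_right
      (Finset.union_subset ((Finset.filter_subset _ _).trans
        (hS v (Finset.mem_insert_self v P))) (h.sub_K v))
    rw [e]
    linarith

theorem X_min (hw : ∀ v, 0 < w v) (h : Feas D U Z) (hm : Mn D w U Z)
    (a : V) : cc D w (Xf D U a) = cm D w (Xf D (Kf Z) a) (Xf D U a) := by
  classical
  refine le_antisymm ?_ (cm_le subset_rfl (h.X_sub_W a))
  obtain ⟨S, hS1, hS2, hS3⟩ := exists_cm (D := D) (w := w) (h.X_sub_W a)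
  rw [← hS3]
  have h1 := inter_le hw h hm (Finset.univ.filter fun v => Nm D a v) S (by
    intro v hv x hx
    exact mem_Xf.1 (hS2 hx) v (Finset.mem_filter.1 hv).2)
  have e : (S.filter fun x => ∀ v ∈ (Finset.univ.filter fun v => Nm D a v), x ∈ U v) =
      Xf D U a := by
    ext x
    simp only [Finset.mem_filter, Finset.mem_univ, true_and, mem_Xf]
    exact ⟨fun h1 => h1.2, fun h1 => ⟨hS1 (mem_Xf.2 h1), h1⟩⟩
  rw [e] at h1
  exact h1

/-- (3): the key inequality. -/
theorem key (hw : ∀ v, 0 < w v) (h : Feas D U Z) (hm : Mn D w U Z) :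
    ∑ v, w v * (cc D w (Kf Z v) - cc D w (U v)) ≤
      ∑ a, w a * (cc D w (Xf D (Kf Z) a) - cc D w (Xf D U a)) := by
  classical
  have hw0 : ∀ v, 0 ≤ w v := fun v => (hw v).le
  have e1 : ∀ v, cc D w (Kf Z v) - cc D w (U v) =
      ∑ x : V, (fm D w (Kf Z v) (U v) (rk x + 1) - fm D w (Kf Z v) (U v) (rk x)) := by
    intro v
    rw [fm_sum (h.sub_K v)]
    have h1 : cm D w (Kf Z v) (U v) = cc D w (U v) := by
      refine le_antisymm (cm_le subset_rfl (h.sub_K v)) ?_
      obtain ⟨S, hS1, hS2, hS3⟩ := exists_cm (D := D) (w := w) (h.sub_K v)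
      rw [← hS3]
      exact row_min hw h hm v S hS1 hS2
    rw [h1]
  have e2 : ∀ a, cc D w (Xf D (Kf Z) a) - cc D w (Xf D U a) =
      ∑ x : V, (fm D w (Xf D (Kf Z) a) (Xf D U a) (rk x + 1) -
        fm D w (Xf D (Kf Z) a) (Xf D U a) (rk x)) := by
    intro a
    rw [fm_sum (h.X_sub_W a), X_min hw h hm a]
  have s1 : ∑ v, w v * (cc D w (Kf Z v) - cc D w (U v)) = ∑ x : V, ∑ v, w v *
      (fm D w (Kf Z v) (U v) (rk x + 1) - fm D w (Kf Z v) (U v) (rk x)) := by
    simp only [e1, Finset.mul_sum]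
    exact Finset.sum_comm
  have s2 : ∑ a, w a * (cc D w (Xf D (Kf Z) a) - cc D w (Xf D U a)) = ∑ x : V, ∑ a, w a *
      (fm D w (Xf D (Kf Z) a) (Xf D U a) (rk x + 1) -
        fm D w (Xf D (Kf Z) a) (Xf D U a) (rk x)) := by
    simp only [e2, Finset.mul_sum]
    exact Finset.sum_comm
  rw [s1, s2]
  refine Finset.sum_le_sum fun x _ => ?_
  set y : V → ℝ := fun v => fm D w (Kf Z v) (U v) (rk x + 1) - fm D w (Kf Z v) (U v) (rk x)
    with hy
  set z : V → ℝ := fun a => fm D w (Xf D (Kf Z) a) (Xf D U a) (rk x + 1) -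
        fm D w (Xf D (Kf Z) a) (Xf D U a) (rk x) with hz
  have hy0 : ∀ v, 0 ≤ y v := fun v => sub_nonneg.2 (fm_mono (h.sub_K v) _)
  have hz0 : ∀ v, 0 ≤ z v := fun v => sub_nonneg.2 (fm_mono (h.X_sub_W v) _)
  have hyG : ∀ v, v ∉ Gx U Z x → y v = 0 := by
    intro v hv
    have h1 : U v ∪ lv (Kf Z v) (rk x + 1) = U v ∪ lv (Kf Z v) (rk x) := by
      ext u
      simp only [Finset.mem_union, mem_lv]
      constructor
      · rintro (h2 | ⟨h2, h3⟩)
        · exact Or.inl h2
        · rcases Nat.lt_or_ge (rk u) (rk x) with h4 | h4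
          · exact Or.inr ⟨h2, h4⟩
          · have h5 : u = x := rk_inj (by omega)
            subst h5
            left
            by_contra h6
            apply hv
            rw [mem_Gx]
            have h7 : v ≠ u := by
              rintro rfl
              exact h6 (h.hU v v (Or.inl rfl))
            refine ⟨h7, h6, ?_⟩
            rcases mem_Kf.1 h2 with h8 | h8
            · exact absurd h8.symm h7
            · exact h8
      · rintro (h2 | ⟨h2, h3⟩)
        · exact Or.inl h2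
        · exact Or.inr ⟨h2, by omega⟩
    simp only [hy, fm, h1, sub_self]
  have h1 : ∑ v, w v * y v = ∑ v ∈ Gx U Z x, w v * y v := by
    symm
    refine Finset.sum_subset (Finset.subset_univ _) ?_
    intro v _ hv
    rw [hyG v hv, mul_zero]
  rw [h1]
  refine (hallsum (D := D) hw0 (cl D (Z x)) _ (Gx U Z x) rfl y z (fun v _ => hy0 v)
    (fun T hT => col_min hw h hm x T hT) ?_).trans ?_
  · intro a ha v hv hav
    have hax : a ≠ x := by
      rintro rfl
      exact (Finset.mem_sdiff.1 ha).2 (subset_cl (h.hZ a a (Or.inl rfl)))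
    have hxW : x ∈ Xf D (Kf Z) a := (h.mem_W hax).2 (Finset.mem_sdiff.1 ha).2
    exact marg hw0 (h.sub_K v) (fun u hu => mem_Xf.1 hu v hav) (h.X_sub_W a)
      (fun u hu => mem_Xf.1 hu v hav) hxW
  · exact Finset.sum_le_sum_of_subset_of_nonneg (Finset.subset_univ _)
      (fun a _ _ => mul_nonneg (hw0 a) (hz0 a))

/-! ### The dual form of the column sums -/

/-- The constant in the double count. -/
noncomputable def C0 (w : V → ℝ) : ℝ := by
  classical exact ∑ a, ∑ x, w a * w x * (if a = x then 2 else 1)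

theorem W_ite (w : V → ℝ) (S : Finset V) [DecidablePred (· ∈ S)] :
    W w S = ∑ a, if a ∈ S then w a else 0 := by
  classical
  unfold W
  rw [← Finset.sum_filter]
  congr 1
  ext a
  simp

theorem dual_le (hw : ∀ v, 0 ≤ w v) (Z K : V → Finset V)
    (h : ∀ a x, a ≠ x → x ∈ K a → a ∉ Z x) :
    ∑ x, w x * W w (Z x) + ∑ a, w a * W w (K a) ≤ C0 w := by
  classical
  unfold C0
  simp only [W_ite, Finset.mul_sum]
  rw [Finset.sum_comm, ← Finset.sum_add_distrib]
  refine Finset.sum_le_sum fun a _ => ?_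
  rw [← Finset.sum_add_distrib]
  refine Finset.sum_le_sum fun x _ => ?_
  have h0 : 0 ≤ w a * w x := mul_nonneg (hw a) (hw x)
  by_cases hax : a = x
  · subst hax
    rw [if_pos rfl]
    split_ifs <;> nlinarith
  · have h1 := h a x hax
    rw [if_neg hax]
    by_cases hx : x ∈ K a
    · rw [if_pos hx, if_neg (h1 hx)]
      nlinarith
    · rw [if_neg hx]
      split_ifs <;> nlinarith

theorem dual_eq (Z K : V → Finset V) (h0 : ∀ a, a ∈ Z a ∧ a ∈ K a)
    (h : ∀ a x, a ≠ x → (x ∈ K a ↔ a ∉ Z x)) :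
    ∑ x, w x * W w (Z x) + ∑ a, w a * W w (K a) = C0 w := by
  classical
  unfold C0
  simp only [W_ite, Finset.mul_sum]
  rw [Finset.sum_comm, ← Finset.sum_add_distrib]
  refine Finset.sum_congr rfl fun a _ => ?_
  rw [← Finset.sum_add_distrib]
  refine Finset.sum_congr rfl fun x _ => ?_
  by_cases hax : a = x
  · subst hax
    rw [if_pos (h0 a).1, if_pos (h0 a).2, if_pos rfl]
    ring
  · rw [if_neg hax]
    by_cases hx : x ∈ K a
    · rw [if_pos hx, if_neg ((h a x hax).1 hx)]
      ring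
    · have h1 : a ∈ Z x := by
        by_contra h1
        exact hx ((h a x hax).2 h1)
      rw [if_neg hx, if_pos h1]
      ring

/-- (4): the map does not increase the cost. -/
theorem cost_le (hw : ∀ v, 0 < w v) (h : Feas D U Z) (hm : Mn D w U Z) :
    Cost D w (Xf D U) (Xf D Z) ≤ Cost D w U Z := by
  have hw0 : ∀ v, 0 ≤ w v := fun v => (hw v).le
  have k := key hw h hm
  have d1 := dual_eq (w := w) Z (Kf Z)
    (fun a => ⟨h.hZ a a (Or.inl rfl), mem_Kf.2 (Or.inl rfl)⟩)
    (fun a x hax => by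
      rw [mem_Kf]
      exact ⟨fun h1 => h1.resolve_left (Ne.symm hax), Or.inr⟩)
  have d2 := dual_eq (w := w) (fun x => cl D (Z x)) (Xf D (Kf Z))
    (fun a => ⟨subset_cl (h.hZ a a (Or.inl rfl)), h.self_W a⟩)
    (fun a x hax => h.mem_W hax)
  have d3 := dual_eq (w := w) (Xf D Z) (fun a => cl D (Kf Z a))
    (fun a => ⟨h.swap.self_X a, subset_cl (mem_Kf.2 (Or.inl rfl))⟩)
    (fun a x hax => by
      constructor
      · intro hx ha
        obtain ⟨u, hu, hxu⟩ := mem_cl_iff.1 hx
        rcases mem_Kf.1 hu with h1 | h1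
        · subst h1
          exact h.orth u x hax (h.hU u x hxu) (Xf_sub x ha)
        · exact h1 (mem_Xf.1 ha u hxu)
      · intro ha
        rw [mem_Xf] at ha
        push Not at ha
        obtain ⟨u, hxu, hu⟩ := ha
        exact mem_cl_iff.2 ⟨u, mem_Kf.2 (Or.inr hu), hxu⟩)
  have d4 := dual_le (w := w) hw0 (fun x => cl D (Xf D Z x)) (fun a => cl D (Xf D (Kf Z) a))
    (fun a x hax => by
      intro hx ha
      obtain ⟨p, hp, hxp⟩ := mem_cl_iff.1 hx
      obtain ⟨q, hq, haq⟩ := mem_cl_iff.1 ha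
      have h1 : q ∈ Z p := mem_Xf.1 hq p hxp
      rcases mem_Kf.1 (mem_Xf.1 hp q haq) with h2 | h2
      · subst h2
        rcases mem_Kf.1 (mem_Xf.1 hp a (Or.inl rfl)) with h3 | h3
        · subst h3
          exact h.orth p x hax (h.hU p x hxp) (Xf_sub x hq)
        · exact h3 (h.hZ p a haq)
      · exact h2 h1)
  have e1 : ∀ S : V → Finset V, ∑ x, w x * cc D w (S x) =
      ∑ x, w x * W w (cl D (S x)) - ∑ x, w x * W w (S x) := by
    intro S
    rw [← Finset.sum_sub_distrib]
    refine Finset.sum_congr rfl fun x _ => ?_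
    unfold cc
    ring
  simp only [mul_sub, Finset.sum_sub_distrib] at k
  rw [e1, e1, e1, e1] at k
  unfold Cost
  rw [e1, e1, e1, e1]
  linarith

end Fam

/-- **Main theorem.** -/
theorem cut (D : OGraph V) (w : V → ℝ) (hw : ∀ v, 0 < w v)
    (hG : ∀ S : Finset V, S.Nonempty → S ≠ Finset.univ →
      W w (cl D (cl D S)) + W w S < 2 * W w (cl D S))
    (harc : ∃ a b, D.arc a b) : False := by
  classical
  have hne : Feas D (fun a => cl D {a}) (fun a => cl D {a}) := by
    refine ⟨fun a b hab => mem_cl_iff.2 ⟨a, Finset.mem_singleton_self a, hab⟩,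
      fun a b hab => mem_cl_iff.2 ⟨a, Finset.mem_singleton_self a, hab⟩, ?_⟩
    intro a x hax hx ha
    obtain ⟨p, hp, hxp⟩ := mem_cl_iff.1 hx
    obtain ⟨q, hq, haq⟩ := mem_cl_iff.1 ha
    rw [Finset.mem_singleton] at hp hq
    subst hp hq
    rcases hxp with h1 | h1
    · exact hax h1
    · rcases haq with h2 | h2
      · exact hax h2.symm
      · exact D.asymm _ _ h1 h2
  obtain ⟨⟨U, Z⟩, hf, hmin⟩ := Set.exists_min_image
    {q : (V → Finset V) × (V → Finset V) | Feas D q.1 q.2} (fun q => Cost D w q.1 q.2)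
    (Set.toFinite _) ⟨(_, _), hne⟩
  have hf' : Feas D U Z := hf
  have hm : Mn D w U Z := fun U' Z' h' => hmin (U', Z') h'
  have h1 := cost_le hw hf' hm
  have h2 := hm _ _ hf'.step
  have hcc : ∀ S : Finset V, S.Nonempty → cc D w (cl D S) ≤ cc D w S := by
    intro S hS
    by_cases hu : S = Finset.univ
    · subst hu
      have : cl D (Finset.univ : Finset V) = Finset.univ :=
        Finset.eq_univ_iff_forall.2 fun z => subset_cl (Finset.mem_univ z)
      rw [this]
    · have := hG S hS hu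
      unfold cc
      linarith
  obtain ⟨b, a, hba⟩ := harc
  have hXa : Xf D U a ≠ Finset.univ := by
    intro he
    have h3 : b ∈ Xf D U a := by
      rw [he]
      exact Finset.mem_univ b
    have hab : a ≠ b := by
      rintro rfl
      exact D.loopless _ hba
    exact hf'.orth a b hab (Xf_sub a h3) (hf'.hZ b a (Or.inr hba))
  have h3 : ∑ v, w v * cc D w (cl D (Xf D U v)) < ∑ v, w v * cc D w (Xf D U v) := by
    refine Finset.sum_lt_sum (fun v _ => ?_) ⟨a, Finset.mem_univ a, ?_⟩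
    · exact mul_le_mul_of_nonneg_left (hcc _ ⟨v, hf'.self_X v⟩) (hw v).le
    · refine mul_lt_mul_of_pos_left ?_ (hw a)
      have := hG _ ⟨a, hf'.self_X a⟩ hXa
      unfold cc
      linarith
  have h4 : ∑ v, w v * cc D w (cl D (Xf D Z v)) ≤ ∑ v, w v * cc D w (Xf D Z v) :=
    Finset.sum_le_sum fun v _ =>
      mul_le_mul_of_nonneg_left (hcc _ ⟨v, hf'.swap.self_X v⟩) (hw v).le
  unfold Cost at h1 h2
  linarith

end Vale.Agent.P038.H585
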